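import Crest.Agent.X212.Sob92.Lim
import Crest.Agent.X212.Pj41.Sm
import Crest.Agent.X212.Cyl58.OE
import Crest.Agent.X212.An.Defs
import Crest.Agent.X212.Met55.Lin

-- ▼ part X212/Met55/Vf
section

/-! Smooth vector fields: chart criterion, coordinate fields, bracket, related fields. -/

open scoped Manifold ContDiff Topology
open Set Filter Function

noncomputable section
namespace Crest.Agent.X212.Met55

open Sob92 Pj41 Cyl58

variable {E H : Type*} [NormedAddCommGroup E] [NormedSpace ℝ E] [TopologicalSpace H]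
  {I : ModelWithCorners ℝ E H} {M : Type*} [TopologicalSpace M] [ChartedSpace H M]
  {E' H' : Type*} [NormedAddCommGroup E'] [NormedSpace ℝ E'] [TopologicalSpace H']
  {I' : ModelWithCorners ℝ E' H'} {M' : Type*} [TopologicalSpace M'] [ChartedSpace H' M']
  {V : Type*} [NormedAddCommGroup V] [NormedSpace ℝ V] {ι : Type*}

theorem two_le : (2 : WithTop ℕ∞) ≤ ∞ := by
  have : ((2 : ℕ∞) : WithTop ℕ∞) ≤ ((⊤ : ℕ∞) : WithTop ℕ∞) := WithTop.coe_le_coe.2 le_top
  exact this

variable (I M) in
/-- vector fields -/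
abbrev VF := Π x : M, TangentSpace I x

theorem dv_vsum (s : Finset ι) (X : ι → VF I M) (u : M → V) (x : M) :
    dv I (fun y => ∑ a ∈ s, X a y) u x = ∑ a ∈ s, dv I (X a) u x := map_sum _ _ _

theorem dv_vsmul (f : M → ℝ) (X : VF I M) (u : M → V) (x : M) :
    dv I (fun y => f y • X y) u x = f x • dv I X u x := map_smul _ _ _

theorem dv_vadd (X Y : VF I M) (u : M → V) (x : M) :
    dv I (fun y => X y + Y y) u x = dv I X u x + dv I Y u x := map_add _ _ _

theorem dv_vcomb [Fintype ι] (f : ι → M → ℝ) (X : ι → VF I M) (u : M → V) (x : M) :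
    dv I (fun y => ∑ a, f a y • X a y) u x = ∑ a, f a x • dv I (X a) u x := by
  rw [dv_vsum]; exact Finset.sum_congr rfl fun a _ => dv_vsmul _ _ _ _

theorem dv_vcongr {X Y : VF I M} {x : M} (h : X x = Y x) (u : M → V) :
    dv I X u x = dv I Y u x := by unfold dv; rw [h]

theorem dv_of_eq_zero {X : VF I M} {x : M} (h : X x = 0) (u : M → V) : dv I X u x = 0 := by
  unfold dv; rw [h]; exact map_zero _

/-- the chain rule for related vectors -/
theorem dv_rel {f : M → M'} {X : VF I M} {X' : VF I' M'} {x : M}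
    (hf : MDifferentiableAt I I' f x) (h : mfderiv I I' f x (X x) = X' (f x)) {u : M' → V}
    (hu : MDifferentiableAt I' 𝓘(ℝ, V) u (f x)) : dv I X (u ∘ f) x = dv I' X' u (f x) := by
  unfold dv
  rw [mfderiv_comp x hu hf, ← h]; rfl

variable [IsManifold I ∞ M] [IsManifold I' ∞ M']

variable (I) in
/-- the vector field is smooth at `x` -/
abbrev VAt (X : VF I M) (x : M) : Prop :=
  ContMDiffAt I I.tangent ∞ (fun x => (⟨x, X x⟩ : TangentBundle I M)) x

theorem vAt_iff {X : VF I M} {p x : M} (hx : x ∈ (chartAt H p).source) :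
    VAt I X x ↔ FSm I (dv I X (extChartAt I p)) x := by
  refine ⟨fun h => dv_smoothAt h (contMDiffAt_extChartAt' hx), fun h => ?_⟩
  refine ((trivializationAt E (TangentSpace I) p).contMDiffAt_section_iff (by simpa using hx)).2
    (h.congr_of_eventuallyEq ?_)
  filter_upwards [(chartAt H p).open_source.mem_nhds hx] with y hy
  have := TangentBundle.continuousLinearMapAt_trivializationAt (I := I) hy
  have h2 := Bundle.Trivialization.continuousLinearMapAt_apply_of_mem ℝ
    (trivializationAt E (TangentSpace I) p) (b := y) (by simpa using hy) (X y)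
  rw [this] at h2
  exact h2.symm

theorem vAt_iff_self {X : VF I M} {x : M} : VAt I X x ↔ FSm I (dv I X (extChartAt I x)) x :=
  vAt_iff (mem_chart_source H x)

theorem dv_chart_self (X : VF I M) (x : M) : dv I X (extChartAt I x) x = X x := by
  unfold dv; rw [mfderiv_extChartAt_self]; rfl

namespace VAt
variable {X Y : VF I M} {x : M}

theorem congr (h : VAt I X x) (e : ∀ᶠ y in 𝓝 x, Y y = X y) : VAt I Y x :=
  h.congr_of_eventuallyEq (e.mono fun y hy => by simp only [hy])

theorem zero : VAt I (fun _ => 0) x := vAt_iff_self.2 <|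
  (contMDiffAt_const (c := 0)).congr_of_eventuallyEq (.of_forall fun _ => dv_of_eq_zero rfl _)

theorem add (h : VAt I X x) (h' : VAt I Y x) : VAt I (fun y => X y + Y y) x := vAt_iff_self.2 <|
  ((vAt_iff_self.1 h).add (vAt_iff_self.1 h')).congr_of_eventuallyEq
    (.of_forall fun _ => dv_vadd _ _ _ _)

theorem smul {f : M → ℝ} (hf : FSm I f x) (h : VAt I X x) : VAt I (fun y => f y • X y) x :=
  vAt_iff_self.2 <| (hf.smul (vAt_iff_self.1 h)).congr_of_eventuallyEq
    (.of_forall fun _ => dv_vsmul _ _ _ _)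

theorem sum {s : Finset ι} {X : ι → VF I M} (h : ∀ a ∈ s, VAt I (X a) x) :
    VAt I (fun y => ∑ a ∈ s, X a y) x := vAt_iff_self.2 <|
  (FSm.sum' fun a ha => vAt_iff_self.1 (h a ha)).congr_of_eventuallyEq
    (.of_forall fun _ => dv_vsum _ _ _ _)

theorem comb [Fintype ι] {f : ι → M → ℝ} {X : ι → VF I M} (hf : ∀ a, FSm I (f a) x)
    (h : ∀ a, VAt I (X a) x) : VAt I (fun y => ∑ a, f a y • X a y) x :=
  sum fun a _ => smul (hf a) (h a)

theorem cutoff {χ : M → ℝ} {U : Set M} (hχ : FSm I χ x) (hU : tsupport χ ⊆ U)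
    (h : x ∈ U → VAt I X x) : VAt I (fun y => χ y • X y) x := by
  by_cases hx : x ∈ tsupport χ
  · exact smul hχ (h (hU hx))
  · refine zero.congr ?_
    filter_upwards [notMem_tsupport_iff_eventuallyEq.1 hx] with y hy
    simp [hy]

end VAt

/-- a tangent vector is determined by one chart -/
theorem tan_ext {p x : M} (hx : x ∈ (chartAt H p).source) {X Y : VF I M}
    (h : dv I X (extChartAt I p) x = dv I Y (extChartAt I p) x) : X x = Y x := by
  obtain ⟨L, hL⟩ := isInvertible_mfderiv_extChartAt (I := I) (x := p) (y := x) (by simpa using hx)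
  unfold dv at h
  rw [← hL] at h
  exact L.injective h

theorem bij_chart {p x : M} (hx : x ∈ (chartAt H p).source) :
    Bijective (mfderiv I 𝓘(ℝ, E) (extChartAt I p) x) := by
  obtain ⟨L, hL⟩ := isInvertible_mfderiv_extChartAt (I := I) (x := p) (y := x) (by simpa using hx)
  rw [← hL]; exact L.bijective

variable (I) in
/-- the constant field `v` of the chart at `p` -/
def cf (p : M) (v : E) : VF I M := fun y => (mfderiv I 𝓘(ℝ, E) (extChartAt I p) y).inverse v

theorem dv_cf {p x : M} (hx : x ∈ (chartAt H p).source) (v : E) :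
    dv I (cf I p v) (extChartAt I p) x = v :=
  (isInvertible_mfderiv_extChartAt (I := I) (x := p) (y := x)
    (by simpa using hx)).self_apply_inverse v

theorem vAt_cf {p x : M} (hx : x ∈ (chartAt H p).source) (v : E) : VAt I (cf I p v) x := by
  refine (vAt_iff hx).2 ((contMDiffAt_const (c := v)).congr_of_eventuallyEq ?_)
  filter_upwards [(chartAt H p).open_source.mem_nhds hx] with y hy using dv_cf hy v

theorem cf_self (x : M) (v : E) : cf I x v x = v := by
  rw [← dv_chart_self (cf I x v) x]; exact dv_cf (mem_chart_source H x) v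

/-! ### the bracket -/

variable (I) in
/-- the Lie bracket -/
def br (X Y : VF I M) : VF I M := fun x =>
  (dv I X (dv I Y (extChartAt I x)) x - dv I Y (dv I X (extChartAt I x)) x : E)

variable [I.Boundaryless]

theorem chart_contDiffAt {n : WithTop ℕ∞} (hn : n ≤ ∞) {p x : M} (hx : x ∈ (chartAt H p).source)
    {f : M → V} (hf : ContMDiffAt I 𝓘(ℝ, V) n f x) :
    ContDiffAt ℝ n (f ∘ (extChartAt I p).symm) (extChartAt I p x) := by
  have h := (chart_symm_smoothAt (I := I) hx).of_le hn
  have h2 : ContMDiffAt I 𝓘(ℝ, V) n f ((extChartAt I p).symm (extChartAt I p x)) := by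
    rwa [(extChartAt I p).left_inv (by simpa using hx)]
  exact (h2.comp _ h).contDiffAt

theorem dv_dv {X Y : VF I M} {x : M} (hY : VAt I Y x) {f : M → V}
    (hf : ContMDiffAt I 𝓘(ℝ, V) 2 f x) :
    dv I X (dv I Y f) x = fderiv ℝ (fderiv ℝ (f ∘ (extChartAt I x).symm)) (extChartAt I x x)
      (X x) (Y x) + fderiv ℝ (f ∘ (extChartAt I x).symm) (extChartAt I x x)
        (dv I X (dv I Y (extChartAt I x)) x) := by
  have hx := mem_chart_source H x
  set g := f ∘ (extChartAt I x).symm
  have hg : ContDiffAt ℝ 2 g (extChartAt I x x) :=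
    chart_contDiffAt two_le hx hf
  have hφ : MDifferentiableAt I 𝓘(ℝ, E) (extChartAt I x) x := mdifferentiableAt_extChartAt hx
  have h1 : dv I Y f =ᶠ[𝓝 x] fun y => fderiv ℝ g (extChartAt I x y) (dv I Y (extChartAt I x) y) := by
    filter_upwards [(chartAt H x).open_source.mem_nhds hx,
      hφ.continuousAt.eventually (hg.eventually (by simp))] with y hy hy'
    exact (of_chart_hasFDerivAt hy (hy'.differentiableAt (by simp)).hasFDerivAt).2 Y
  have h2 : HasFDerivAt (fderiv ℝ g) (fderiv ℝ (fderiv ℝ g) (extChartAt I x x))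
      (extChartAt I x x) :=
    ((hg.fderiv_right (m := 1) (by norm_num)).differentiableAt (by simp)).hasFDerivAt
  rw [dv_congr h1, dv_app (f := fun y => fderiv ℝ g (extChartAt I x y))
    (h2.differentiableAt.mdifferentiableAt.comp x hφ)
    ((vAt_iff_self.1 hY).mdifferentiableAt (by simp)), dv_comp hφ h2, dv_chart_self,
    dv_chart_self]

theorem dv_br {X Y : VF I M} {x : M} (hX : VAt I X x) (hY : VAt I Y x) {f : M → V}
    (hf : ContMDiffAt I 𝓘(ℝ, V) 2 f x) :
    dv I (br I X Y) f x = dv I X (dv I Y f) x - dv I Y (dv I X f) x := by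
  have hx := mem_chart_source H x
  have hg : ContDiffAt ℝ 2 (f ∘ (extChartAt I x).symm) (extChartAt I x x) :=
    chart_contDiffAt two_le hx hf
  rw [dv_dv hY hf, dv_dv hX hf, (hg.isSymmSndFDerivAt (by simp)).eq (X x) (Y x),
    (of_chart_hasFDerivAt hx (hg.differentiableAt (by simp)).hasFDerivAt).2, dv_chart_self]
  simp only [br, add_sub_add_left_eq_sub]
  exact map_sub _ _ _

theorem VAt.eventually_dv_br {X Y : VF I M} {p : M} {U : Set M} (hU : IsOpen U)
    (hX : ∀ y ∈ U, VAt I X y) (hY : ∀ y ∈ U, VAt I Y y) {x : M} (hx : x ∈ U)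
    (hp : x ∈ (chartAt H p).source) :
    dv I (br I X Y) (extChartAt I p) =ᶠ[𝓝 x] fun y =>
      dv I X (dv I Y (extChartAt I p)) y - dv I Y (dv I X (extChartAt I p)) y := by
  filter_upwards [hU.mem_nhds hx, (chartAt H p).open_source.mem_nhds hp] with y hy hy'
  exact dv_br (hX y hy) (hY y hy) ((contMDiffAt_extChartAt' (n := ∞) hy').of_le two_le)

theorem vAt_br {X Y : VF I M} {U : Set M} (hU : IsOpen U) (hX : ∀ y ∈ U, VAt I X y)
    (hY : ∀ y ∈ U, VAt I Y y) {x : M} (hx : x ∈ U) : VAt I (br I X Y) x := by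
  refine vAt_iff_self.2 (ContMDiffAt.congr_of_eventuallyEq ?_
    (VAt.eventually_dv_br hU hX hY hx (mem_chart_source H x)))
  exact (dv_smoothAt (hX x hx) (vAt_iff_self.1 (hY x hx))).sub
    (dv_smoothAt (hY x hx) (vAt_iff_self.1 (hX x hx)))

omit [IsManifold I ∞ M] [I.Boundaryless] in
theorem br_congr {X Y X' Y' : VF I M} {x : M} (hX : ∀ᶠ y in 𝓝 x, X y = X' y)
    (hY : ∀ᶠ y in 𝓝 x, Y y = Y' y) : br I X Y x = br I X' Y' x := by
  have h1 : dv I X (extChartAt I x) =ᶠ[𝓝 x] dv I X' (extChartAt I x) :=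
    hX.mono fun y hy => dv_vcongr hy _
  have h2 : dv I Y (extChartAt I x) =ᶠ[𝓝 x] dv I Y' (extChartAt I x) :=
    hY.mono fun y hy => dv_vcongr hy _
  unfold br
  rw [dv_congr h1, dv_congr h2, dv_vcongr hX.self_of_nhds, dv_vcongr hY.self_of_nhds]

/-- related fields have related brackets -/
theorem br_rel [I'.Boundaryless] {f : M → M'} {X Y : VF I M} {X' Y' : VF I' M'} {x : M}
    (hf : ContMDiffAt I I' ∞ f x) (hX : VAt I X x) (hY : VAt I Y x) (hX' : VAt I' X' (f x))
    (hY' : VAt I' Y' (f x)) (h1 : ∀ᶠ y in 𝓝 x, mfderiv I I' f y (X y) = X' (f y))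
    (h2 : ∀ᶠ y in 𝓝 x, mfderiv I I' f y (Y y) = Y' (f y)) :
    mfderiv I I' f x (br I X Y x) = br I' X' Y' (f x) := by
  have hx := mem_chart_source H' (f x)
  have hφ : ContMDiffAt I' 𝓘(ℝ, E') ∞ (extChartAt I' (f x)) (f x) := contMDiffAt_extChartAt
  have hd : ∀ᶠ y in 𝓝 x, MDifferentiableAt I I' f y :=
    ((contMDiffAt_iff_contMDiffAt_nhds (n := 1) (by simp)).1 (hf.of_le (by simp))).mono
      fun y hy => hy.mdifferentiableAt (by simp)
  have hs : ∀ᶠ y in 𝓝 x, f y ∈ (chartAt H' (f x)).source :=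
    hf.continuousAt.eventually ((chartAt H' (f x)).open_source.mem_nhds hx)
  have key : ∀ {Z : VF I M} {Z' : VF I' M'}, (∀ᶠ y in 𝓝 x, mfderiv I I' f y (Z y) = Z' (f y)) →
      dv I Z (extChartAt I' (f x) ∘ f) =ᶠ[𝓝 x] dv I' Z' (extChartAt I' (f x)) ∘ f := by
    intro Z Z' h
    filter_upwards [h, hd, hs] with y a b c using dv_rel b a (mdifferentiableAt_extChartAt c)
  have h3 := dv_br hX hY ((hφ.comp x hf).of_le two_le)
  rw [dv_congr (key h1), dv_congr (key h2),
    dv_rel hd.self_of_nhds h1.self_of_nhds ((vAt_iff_self.1 hY').mdifferentiableAt (by simp)),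
    dv_rel hd.self_of_nhds h2.self_of_nhds ((vAt_iff_self.1 hX').mdifferentiableAt (by simp)),
    dv_rel (X' := fun _ => mfderiv I I' f x (br I X Y x)) hd.self_of_nhds rfl
      (mdifferentiableAt_extChartAt hx), dv_chart_self] at h3
  exact h3

/-! ### fields related by a local diffeomorphism -/

omit [I.Boundaryless] [IsManifold I ∞ M] [IsManifold I' ∞ M'] in
theorem ld_bij {f : M → M'} {x : M} (h : IsLocalDiffeomorphAt I I' ∞ f x) :
    Bijective (mfderiv I I' f x) := (h.mfderivToContinuousLinearEquiv (by simp)).bijective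

omit [I.Boundaryless] [IsManifold I ∞ M] [IsManifold I' ∞ M'] in
theorem ld_inv {f : M → M'} {x : M} (h : IsLocalDiffeomorphAt I I' ∞ f x) :
    (mfderiv I I' f x).IsInvertible := ⟨h.mfderivToContinuousLinearEquiv (by simp), rfl⟩

omit [I.Boundaryless] [IsManifold I ∞ M] [IsManifold I' ∞ M'] in
theorem ld_eventually {f : M → M'} {x : M} (h : IsLocalDiffeomorphAt I I' ∞ f x) :
    ∀ᶠ y in 𝓝 x, IsLocalDiffeomorphAt I I' ∞ f y := by
  obtain ⟨Φ, hx, hΦ⟩ := h
  filter_upwards [Φ.open_source.mem_nhds hx] with y hy using ⟨Φ, hy, hΦ⟩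

omit [I.Boundaryless] in
theorem vAt_rel {f : M → M'} {x : M} (h : IsLocalDiffeomorphAt I I' ∞ f x) {X : VF I M}
    {X' : VF I' M'} (hr : ∀ᶠ y in 𝓝 x, mfderiv I I' f y (X y) = X' (f y)) :
    VAt I X x ↔ VAt I' X' (f x) := by
  have hd : ∀ᶠ y in 𝓝 x, MDifferentiableAt I I' f y :=
    (ld_eventually h).mono fun y hy => hy.contMDiffAt.mdifferentiableAt (by simp)
  constructor
  · intro hX
    refine vAt_iff_self.2 (contMDiffAt_of_comp h ?_)
    refine (dv_smoothAt hX ((contMDiffAt_extChartAt (x := f x)).comp x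
      h.contMDiffAt)).congr_of_eventuallyEq ?_
    filter_upwards [hr, hd, h.contMDiffAt.continuousAt.eventually
      ((chartAt H' (f x)).open_source.mem_nhds (mem_chart_source H' (f x)))] with y a b c
    exact (dv_rel b a (mdifferentiableAt_extChartAt c)).symm
  · intro hX
    have e1 : ∀ᶠ y in 𝓝 x, h.localInverse (f y) = y := h.localInverse_eventuallyEq_left
    have e2 : ContMDiffAt I' 𝓘(ℝ, E) ∞ (extChartAt I x ∘ h.localInverse) (f x) := by
      refine ContMDiffAt.comp _ ?_ h.localInverse_contMDiffAt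
      rw [e1.self_of_nhds]; exact contMDiffAt_extChartAt
    have e3 : ∀ᶠ z in 𝓝 (f x), MDifferentiableAt I' 𝓘(ℝ, E) (extChartAt I x ∘ h.localInverse) z :=
      ((contMDiffAt_iff_contMDiffAt_nhds (n := 1) (by simp)).1 (e2.of_le (by simp))).mono
        fun y hy => hy.mdifferentiableAt (by simp)
    refine vAt_iff_self.2 (((dv_smoothAt hX e2).comp x h.contMDiffAt).congr_of_eventuallyEq ?_)
    filter_upwards [hr, hd, e1.eventually_nhds, h.contMDiffAt.continuousAt.eventually e3]
      with y a b c d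
    rw [comp_apply, ← dv_rel b a d]
    exact dv_congr (c.mono fun z hz => by simp only [comp_apply, hz])

variable (I I') in
/-- pull-back of a vector field -/
def pbv (f : M → M') (X' : VF I' M') : VF I M := fun y => (mfderiv I I' f y).inverse (X' (f y))

variable (I I') in
/-- push-forward of a vector field along an injective map, extended by zero -/
def pfv (f : M → M') (X : VF I M) : VF I' M' := fun z =>
  extend f (fun y => (mfderiv I I' f y (X y) : E')) (fun _ => 0) z

omit [I.Boundaryless] [IsManifold I ∞ M] [IsManifold I' ∞ M'] in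
theorem pbv_rel {f : M → M'} {x : M} (h : IsLocalDiffeomorphAt I I' ∞ f x) (X' : VF I' M') :
    mfderiv I I' f x (pbv I I' f X' x) = X' (f x) := (ld_inv h).self_apply_inverse _

omit [I.Boundaryless] in
theorem vAt_pbv {f : M → M'} {x : M} (h : IsLocalDiffeomorphAt I I' ∞ f x) {X' : VF I' M'}
    (hX : VAt I' X' (f x)) : VAt I (pbv I I' f X') x :=
  (vAt_rel h ((ld_eventually h).mono fun _ hy => pbv_rel hy X')).2 hX

omit [I.Boundaryless] [IsManifold I ∞ M] [IsManifold I' ∞ M'] in
theorem pfv_rel {f : M → M'} (hf : Injective f) (X : VF I M) (x : M) :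
    mfderiv I I' f x (X x) = pfv I I' f X (f x) :=
  (hf.extend_apply (fun y => (mfderiv I I' f y (X y) : E')) (fun _ => 0) x).symm

omit [I.Boundaryless] [IsManifold I ∞ M] [IsManifold I' ∞ M'] in
theorem pfv_of_notMem {f : M → M'} (X : VF I M) {z : M'} (hz : z ∉ range f) :
    pfv I I' f X z = 0 := extend_apply' _ _ _ hz

omit [I.Boundaryless] in
theorem vAt_pfv {f : M → M'} (hf : IsOE I I' f) {X : VF I M} {x : M} (hX : VAt I X x) :
    VAt I' (pfv I I' f X) (f x) :=
  (vAt_rel (hf.loc x) (.of_forall (pfv_rel hf.inj X))).1 hX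

end Crest.Agent.X212.Met55
end
end

-- ▼ part X212/Met55/Div
section

/-! The divergence of a vector field for a measure with smooth positive density. -/

set_option linter.unusedSectionVars false

open scoped Manifold ContDiff Topology ENNReal
open Set Filter Function MeasureTheory Module

noncomputable section
namespace Crest.Agent.X212.Met55

open Sob92 Pj41 An

variable {E : Type} [NormedAddCommGroup E] [NormedSpace ℝ E] [FiniteDimensional ℝ E]
  {H : Type} [TopologicalSpace H] {I : ModelWithCorners ℝ E H}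
  {M : Type} [TopologicalSpace M] [ChartedSpace H M] [IsManifold I ∞ M]
  {V : Type} [NormedAddCommGroup V] [NormedSpace ℝ V]

variable (I) in
/-- the components of a vector field in the chart at `p` -/
def cp (p : M) (X : VF I M) (i : Fin (finrank ℝ E)) (x : M) : ℝ :=
  (finBasis ℝ E).repr (dv I X (extChartAt I p) x) i

theorem cp_sm {p x : M} (hx : x ∈ (chartAt H p).source) {X : VF I M} (hX : VAt I X x)
    (i : Fin (finrank ℝ E)) : FSm I (cp I p X i) x :=
  ((finBasis ℝ E).coord i).toContinuousLinearMap.contDiff.contDiffAt.comp_contMDiffAt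
    ((vAt_iff hx).1 hX)

theorem sum_cp {p x : M} (hx : x ∈ (chartAt H p).source) (X : VF I M) :
    ∑ i, cp I p X i x • cf I p (finBasis ℝ E i) x = X x := by
  refine tan_ext (X := fun y => ∑ i, cp I p X i y • cf I p (finBasis ℝ E i) y) hx ?_
  rw [dv_vcomb]
  simp only [dv_cf hx]
  exact (finBasis ℝ E).sum_repr _

theorem dv_cp {p x : M} (hx : x ∈ (chartAt H p).source) (X : VF I M) (u : M → V) :
    dv I X u x = ∑ i, cp I p X i x • dv I (cf I p (finBasis ℝ E i)) u x := by
  rw [← dv_vcomb]; exact dv_vcongr (sum_cp hx X).symm u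

variable (I) in
/-- the divergence in the chart at `p`, for the density `r` -/
def ldv (p : M) (r : M → ℝ) (X : VF I M) (x : M) : ℝ :=
  (r x)⁻¹ * ∑ i, dv I (cf I p (finBasis ℝ E i)) (fun y => r y * cp I p X i y) x

theorem ldv_sm {p x : M} (hx : x ∈ (chartAt H p).source) {X : VF I M} (hX : VAt I X x)
    {r : M → ℝ} (hr : FSm I r x) (h0 : r x ≠ 0) : FSm I (ldv I p r X) x :=
  (hr.inv' h0).mul' (FSm.sum' fun i _ => dv_smoothAt (vAt_cf hx _) (hr.mul' (cp_sm hx hX i)))

/-- a cut-off times a locally smooth function -/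
theorem sm_cut {χ : M → ℝ} {g : M → V} {U : Set M} (hχ : Sm I χ) (hU : tsupport χ ⊆ U)
    (hg : ∀ x ∈ U, FSm I g x) : Sm I fun y => χ y • g y := fun x => by
  by_cases hx : x ∈ tsupport χ
  · exact (hχ x).smul (hg x (hU hx))
  · refine (contMDiffAt_const (c := 0)).congr_of_eventuallyEq ?_
    filter_upwards [notMem_tsupport_iff_eventuallyEq.1 hx] with y hy
    simp [hy]

theorem cont_cut {f g : M → ℝ} {U : Set M} (hf : Continuous f) (hU : tsupport f ⊆ U)
    (hg : ∀ x ∈ U, ContinuousAt g x) : Continuous fun x => g x * f x :=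
  continuous_iff_continuousAt.2 fun x => by
    by_cases hx : x ∈ tsupport f
    · exact (hg x (hU hx)).mul hf.continuousAt
    · refine continuousAt_const (y := (0 : ℝ)) |>.congr ?_
      filter_upwards [notMem_tsupport_iff_eventuallyEq.1 hx] with y hy
      simp [hy]

theorem cont_dv {X : VF I M} {U : Set M} (hX : ∀ x ∈ U, VAt I X x) {f : M → V} (hf : Sm I f)
    (hU : tsupport f ⊆ U) : Sm I (dv I X f) := fun x => by
  by_cases hx : x ∈ tsupport f
  · exact dv_smoothAt (hX x (hU hx)) (hf x)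
  · exact contMDiffAt_const.congr_of_eventuallyEq
      (notMem_tsupport_iff_eventuallyEq.1 fun h => hx (tsupport_dv f h))

theorem dv_mul {X : VF I M} {f g : M → ℝ} {x : M} (hf : FSm I f x) (hg : FSm I g x) :
    dv I X (fun y => f y * g y) x = dv I X f x * g x + f x * dv I X g x :=
  dv_smul (hf.mdifferentiableAt (by simp)) (hg.mdifferentiableAt (by simp))

variable [T2Space M]

/-- a bump at `x` inside a neighbourhood -/
theorem exists_bump {x : M} {O : Set M} (hO : O ∈ 𝓝 x) : ∃ χ : M → ℝ, Sm I χ ∧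
    HasCompactSupport χ ∧ tsupport χ ⊆ O ∧ (∀ y, 0 ≤ χ y ∧ χ y ≤ 1) ∧ χ =ᶠ[𝓝 x] 1 := by
  obtain ⟨f, -, hf⟩ := (SmoothBumpFunction.nhds_basis_tsupport (I := I) x).mem_iff.1 hO
  exact ⟨f, f.contMDiff, f.hasCompactSupport, hf, fun y => ⟨f.nonneg, f.le_one⟩,
    f.eventuallyEq_one⟩

/-- an additive property of test functions that holds locally holds -/
theorem loc_induction {p : (M → V) → Prop} (h0 : p 0) {U : Set M}
    (hadd : ∀ f g, Sm I f → HasCompactSupport f → tsupport f ⊆ U → Sm I g → HasCompactSupport g →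
      tsupport g ⊆ U → p f → p g → p (f + g))
    (hloc : ∀ x ∈ U, ∃ O ∈ 𝓝 x, ∀ f, Sm I f → HasCompactSupport f →
      tsupport f ⊆ O → tsupport f ⊆ U → p f)
    {f : M → V} (hf : Sm I f) (hc : HasCompactSupport f) (hU : tsupport f ⊆ U) : p f := by
  classical
  choose! O hO hp using hloc
  have hb : ∀ x ∈ U, ∃ χ : M → ℝ, Sm I χ ∧ tsupport χ ⊆ O x ∧ χ =ᶠ[𝓝 x] 1 := fun x hx => by
    obtain ⟨χ, h1, -, h2, -, h3⟩ := exists_bump (I := I) (hO x hx)
    exact ⟨χ, h1, h2, h3⟩
  choose! χ h1 h2 h3 using hb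
  obtain ⟨t, ht, hcov⟩ := hc.isCompact.elim_nhds_subcover (fun x => {y | χ x =ᶠ[𝓝 y] 1})
    fun x hx => (h3 x (hU hx)).eventually_nhds
  have ht' : ∀ x ∈ t, x ∈ U := fun x hx => hU (ht x hx)
  clear ht
  induction t using Finset.induction_on generalizing f with
  | empty =>
    have : f = 0 := by
      funext x; by_contra h
      simpa using hcov (subset_tsupport _ h)
    rwa [this]
  | insert a t ha ih =>
    have haU := ht' a (Finset.mem_insert_self _ _)
    have e : f = (fun y => χ a y • f y) + fun y => (1 - χ a y) • f y := by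
      funext y; simp [← add_smul]
    have s1 : Sm I fun y => χ a y • f y := (h1 a haU).smul hf
    have s2 : Sm I fun y => (1 - χ a y) • f y := (contMDiff_const.sub (h1 a haU)).smul hf
    have t1 : tsupport (fun y => χ a y • f y) ⊆ tsupport f := tsupport_smul_subset_right _ _
    have t2 : tsupport (fun y => (1 - χ a y) • f y) ⊆ tsupport f := tsupport_smul_subset_right _ _
    have c1 := hc.of_isClosed_subset (isClosed_tsupport _) t1
    have c2 := hc.of_isClosed_subset (isClosed_tsupport _) t2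
    rw [e]
    refine hadd _ _ s1 c1 (t1.trans hU) s2 c2 (t2.trans hU) (hp a haU _ s1 c1 ((tsupport_smul_subset_left _ _).trans
      (h2 a haU)) (t1.trans hU)) (ih s2 c2 (t2.trans hU) (fun y hy => ?_)
        fun x hx => ht' x (Finset.mem_insert_of_mem hx))
    have := hcov (t2 hy)
    rw [Finset.set_biUnion_insert] at this
    refine this.resolve_left fun h => ?_
    refine notMem_tsupport_iff_eventuallyEq.2 ?_ hy
    filter_upwards [h] with z hz
    simp [hz]

variable [MeasurableSpace E] [BorelSpace E] [I.Boundaryless] [MeasurableSpace M] [BorelSpace M]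

instance : (leb E).IsAddHaarMeasure := by unfold leb; infer_instance

section chart
variable {μ : Measure M} {p : M} {O : Set M} {ρ : E → ℝ}

theorem isOpen_img (hO : IsOpen O) (hs : O ⊆ (extChartAt I p).source) :
    IsOpen (extChartAt I p '' O) := by
  rw [(extChartAt I p).image_eq_target_inter_inv_preimage hs]
  exact (continuousOn_extChartAt_symm p).isOpen_inter_preimage (isOpen_extChartAt_target p) hO

theorem dens_aem (h : HasDens I μ p O ρ) : AEMeasurable (extChartAt I p) (μ.restrict O) :=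
  ((continuousOn_extChartAt p).mono h.2.2.1).aemeasurable h.1.measurableSet

/-- integrals in the chart -/
theorem dens_integral (h : HasDens I μ p O ρ) (hρ : ContinuousOn ρ (extChartAt I p '' O))
    (hp : ∀ y ∈ extChartAt I p '' O, 0 ≤ ρ y) {g : M → V} (hg : ContinuousOn g O) :
    ∫ x in O, g x ∂μ = ∫ y in extChartAt I p '' O, ρ y • g ((extChartAt I p).symm y) ∂leb E := by
  have hm := (isOpen_img h.1 h.2.2.1).measurableSet
  have hc : ContinuousOn (fun y => g ((extChartAt I p).symm y)) (extChartAt I p '' O) := by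
    refine hg.comp ((continuousOn_extChartAt_symm p).mono ?_) ?_
    · rintro _ ⟨x, hx, rfl⟩; exact (extChartAt I p).map_source (h.2.2.1 hx)
    · rintro _ ⟨x, hx, rfl⟩; rwa [(extChartAt I p).left_inv (h.2.2.1 hx)]
  have h1 : ∫ x in O, g x ∂μ = ∫ x in O, g ((extChartAt I p).symm (extChartAt I p x)) ∂μ :=
    setIntegral_congr_fun h.1.measurableSet fun x hx => by
      simp only [(extChartAt I p).left_inv (h.2.2.1 hx)]
  have h2 : AEStronglyMeasurable (fun y => g ((extChartAt I p).symm y))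
      ((μ.restrict O).map (extChartAt I p)) := by
    rw [h.2.2.2]
    exact (hc.aestronglyMeasurable hm).mono_ac (withDensity_absolutelyContinuous _ _)
  rw [h1, ← integral_map (dens_aem h) h2, h.2.2.2]
  have h3 := integral_withDensity_eq_integral_smul₀
    (hρ.aemeasurable (μ := leb E) hm).real_toNNReal (fun y => g ((extChartAt I p).symm y))
  refine h3.trans (setIntegral_congr_fun hm fun y hy => ?_)
  show (ρ y).toNNReal • _ = _
  rw [NNReal.smul_def, Real.coe_toNNReal _ (hp y hy)]

theorem dens_pos (h : HasDens I μ p O ρ) (hρ : ContinuousOn ρ (extChartAt I p '' O))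
    (hp : ∀ y ∈ extChartAt I p '' O, 0 < ρ y) {U : Set M} (hU : IsOpen U) (hx : p ∈ U) :
    μ U ≠ 0 := by
  intro h0
  have hm := (isOpen_img h.1 h.2.2.1).measurableSet
  have hs : U ∩ O ⊆ (extChartAt I p).source := fun x hx => h.2.2.1 hx.2
  have ho := isOpen_img (hU.inter h.1) hs
  have h1 : (μ.restrict O).map (extChartAt I p) (extChartAt I p '' (U ∩ O)) = 0 := by
    rw [Measure.map_apply_of_aemeasurable (dens_aem h) ho.measurableSet,
      Measure.restrict_apply' h.1.measurableSet]
    refine measure_mono_null ?_ h0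
    rintro x ⟨⟨z, hz, e⟩, hx⟩
    exact (extChartAt I p).injOn (hs hz) (h.2.2.1 hx) e ▸ hz.1
  rw [h.2.2.2, withDensity_apply_eq_zero' (hρ.aemeasurable hm).ennreal_ofReal,
    Measure.restrict_apply' hm] at h1
  refine ho.measure_ne_zero (leb E) ⟨_, p, ⟨hx, h.2.1⟩, rfl⟩ (measure_mono_null ?_ h1)
  intro y hy
  have hy' := image_mono inter_subset_right hy
  exact ⟨⟨(ENNReal.ofReal_pos.2 (hp y hy')).ne', hy⟩, hy'⟩

/-- the basic integration by parts -/
theorem ibp_cf (h : HasDens I μ p O ρ) (hρ : ContinuousOn ρ (extChartAt I p '' O))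
    (hp : ∀ y ∈ extChartAt I p '' O, 0 < ρ y) {w : M → ℝ} (hw : Sm I w)
    (hc : HasCompactSupport w) (hO : tsupport w ⊆ O) (v : E) :
    ∫ x in O, (ρ (extChartAt I p x))⁻¹ * dv I (cf I p v) w x ∂μ = 0 := by
  have hs : ∀ x ∈ O, x ∈ (chartAt H p).source := fun x hx => by simpa using h.2.2.1 hx
  have ho := isOpen_img h.1 h.2.2.1
  set W := extChartAt I p '' O
  set g : E → ℝ := W.indicator (w ∘ (extChartAt I p).symm) with hg
  have hK : IsCompact (extChartAt I p '' tsupport w) :=
    hc.isCompact.image_of_continuousOn ((continuousOn_extChartAt p).mono (hO.trans h.2.2.1))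
  have hsup : tsupport g ⊆ extChartAt I p '' tsupport w := by
    refine closure_minimal (fun y hy => ?_) hK.isClosed
    rw [hg, support_indicator] at hy
    obtain ⟨⟨x, hx, rfl⟩, h2⟩ := hy
    rw [mem_support, comp_apply, (extChartAt I p).left_inv (h.2.2.1 hx)] at h2
    exact ⟨x, subset_tsupport _ h2, rfl⟩
  have hev : ∀ y ∈ W, g =ᶠ[𝓝 y] w ∘ (extChartAt I p).symm := fun y hy => by
    filter_upwards [ho.mem_nhds hy] with z hz using indicator_of_mem hz _
  have hgs : ContDiff ℝ 1 g := contDiff_iff_contDiffAt.2 fun y => by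
    by_cases hy : y ∈ W
    · obtain ⟨x, hx, rfl⟩ := hy
      exact (chart_contDiffAt (by simp) (hs x hx) ((hw x).of_le (by simp))).congr_of_eventuallyEq
        (hev _ ⟨x, hx, rfl⟩)
    · exact contDiffAt_const.congr_of_eventuallyEq (notMem_tsupport_iff_eventuallyEq.1
        fun h' => hy (image_mono hO (hsup h')))
  have hgc : HasCompactSupport g := hK.of_isClosed_subset (isClosed_tsupport _) hsup
  have hcont : ContinuousOn (fun x => (ρ (extChartAt I p x))⁻¹ * dv I (cf I p v) w x) O := by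
    refine ContinuousOn.mul (ContinuousOn.inv₀ (hρ.comp ((continuousOn_extChartAt p).mono
      h.2.2.1) (mapsTo_image _ _)) fun x hx => (hp _ ⟨x, hx, rfl⟩).ne') fun x hx => ?_
    exact (dv_smoothAt (vAt_cf (hs x hx) v) (hw x)).continuousAt.continuousWithinAt
  rw [dens_integral h hρ (fun y hy => (hp y hy).le) hcont]
  have h1 : ∫ y in W, fderiv ℝ g y v ∂leb E = ∫ y, fderiv ℝ g y v ∂leb E := by
    refine setIntegral_eq_integral_of_forall_compl_eq_zero fun y hy => ?_
    have : y ∉ tsupport g := fun h' => hy (image_mono hO (hsup h'))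
    rw [(notMem_tsupport_iff_eventuallyEq.1 this).fderiv_eq]; simp
  have h2 := integral_mul_fderiv_eq_neg_fderiv_mul_of_integrable (μ := leb E)
    (f := fun _ : E => (1 : ℝ)) (g := g) (v := v) (by simp)
    (by simpa using ((hgs.continuous_fderiv (by simp)).clm_apply
      continuous_const).integrable_of_hasCompactSupport (hgc.fderiv_apply ℝ v))
    (by simpa using hgs.continuous.integrable_of_hasCompactSupport hgc)
    (fun _ _ => differentiableAt_const _) fun y _ => hgs.differentiable (by simp) y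
  simp only [one_mul, fderiv_fun_const, Pi.zero_apply, zero_apply, zero_mul,
    integral_zero, neg_zero] at h2
  rw [← h2, ← h1]
  refine setIntegral_congr_fun ho.measurableSet ?_
  rintro _ ⟨x, hx, rfl⟩
  have h3 := chart_differentiableAt (hs x hx) ((hw x).mdifferentiableAt (by simp))
  simp only [(extChartAt I p).left_inv (h.2.2.1 hx)]
  rw [(of_chart_hasFDerivAt (hs x hx) h3.hasFDerivAt).2, dv_cf (hs x hx),
    (hev _ ⟨x, hx, rfl⟩).fderiv_eq, smul_eq_mul, mul_inv_cancel_left₀ (hp _ ⟨x, hx, rfl⟩).ne']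

end chart

variable (I) in
/-- `d` is the divergence of `X` on `U` -/
def IsDiv (μ : Measure M) (X : VF I M) (d : M → ℝ) (U : Set M) : Prop :=
  ∀ f : M → ℝ, Sm I f → HasCompactSupport f → tsupport f ⊆ U →
    ∫ x, dv I X f x ∂μ = -∫ x, d x * f x ∂μ

theorem IsDiv.mono {μ : Measure M} {X : VF I M} {d : M → ℝ} {U U' : Set M} (h : IsDiv I μ X d U)
    (hU : U' ⊆ U) : IsDiv I μ X d U' := fun f h1 h2 h3 => h f h1 h2 (h3.trans hU)

theorem IsDiv.congr {μ : Measure M} {X X' : VF I M} {d d' : M → ℝ} {U : Set M}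
    (h : IsDiv I μ X d U) (hX : ∀ x ∈ U, X' x = X x) (hd : EqOn d' d U) : IsDiv I μ X' d' U := by
  intro f h1 h2 h3
  have e1 : dv I X' f = dv I X f := funext fun x => by
    by_cases hx : x ∈ tsupport f
    · exact dv_vcongr (hX x (h3 hx)) f
    · rw [dv_eq_zero_of_notMem hx, dv_eq_zero_of_notMem hx]
  have e2 : (fun x => d' x * f x) = fun x => d x * f x := funext fun x => by
    by_cases hx : x ∈ tsupport f
    · rw [hd (h3 hx)]
    · simp [image_eq_zero_of_notMem_tsupport hx]
  rw [e1, e2]; exact h f h1 h2 h3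

theorem isDiv_ldv {μ : Measure M} [IsFiniteMeasureOnCompacts μ] {p : M} {O : Set M} {ρ : E → ℝ}
    (h : HasDens I μ p O ρ) (hρ : ContDiffOn ℝ ∞ ρ (extChartAt I p '' O))
    (hp : ∀ y ∈ extChartAt I p '' O, 0 < ρ y) {X : VF I M} (hX : ∀ x ∈ O, VAt I X x) :
    IsDiv I μ X (ldv I p (fun x => ρ (extChartAt I p x)) X) O := by
  intro f hf hc hO
  have hs : ∀ x ∈ O, x ∈ (chartAt H p).source := fun x hx => by simpa using h.2.2.1 hx
  set r : M → ℝ := fun x => ρ (extChartAt I p x)
  have hr : ∀ x ∈ O, FSm I r x := fun x hx =>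
    (hρ.contDiffAt ((isOpen_img h.1 h.2.2.1).mem_nhds ⟨x, hx, rfl⟩)).comp_contMDiffAt
      (contMDiffAt_extChartAt' (hs x hx))
  have h0 : ∀ x ∈ O, r x ≠ 0 := fun x hx => (hp _ ⟨x, hx, rfl⟩).ne'
  let w : Fin (finrank ℝ E) → M → ℝ := fun i x => f x • (r x * cp I p X i x)
  have hw : ∀ i, Sm I (w i) := fun i =>
    sm_cut hf hO fun x hx => (hr x hx).mul' (cp_sm (hs x hx) (hX x hx) i)
  have tw : ∀ i, tsupport (w i) ⊆ tsupport f := fun i => tsupport_smul_subset_left _ _
  have cw : ∀ i, HasCompactSupport (w i) := fun i =>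
    hc.of_isClosed_subset (isClosed_tsupport _) (tw i)
  have i1 : Integrable (dv I X f) μ :=
    (cont_dv hX hf hO).continuous.integrable_of_hasCompactSupport (dv_hcs hc)
  have i2 : Integrable (fun x => ldv I p r X x * f x) μ :=
    (cont_cut hf.continuous hO fun x hx => (ldv_sm (hs x hx) (hX x hx) (hr x hx)
      (h0 x hx)).continuousAt).integrable_of_hasCompactSupport hc.mul_left
  have i3 : ∀ i, Integrable (fun x => (r x)⁻¹ * dv I (cf I p (finBasis ℝ E i)) (w i) x) μ :=
    fun i => (cont_cut (cont_dv (fun x hx => vAt_cf (hs x hx) _) (hw i)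
      ((tw i).trans hO)).continuous ((tsupport_dv _).trans ((tw i).trans hO)) fun x hx =>
        ((hr x hx).inv' (h0 x hx)).continuousAt).integrable_of_hasCompactSupport
          (dv_hcs (cw i)).mul_left
  rw [eq_neg_iff_add_eq_zero, ← integral_add i1 i2,
    ← setIntegral_eq_integral_of_forall_compl_eq_zero (s := O)]
  · have h1 := Finset.sum_eq_zero (s := Finset.univ) fun i _ =>
      ibp_cf h hρ.continuousOn hp (hw i) (cw i) ((tw i).trans hO) (finBasis ℝ E i)
    rw [← integral_finsetSum _ fun i _ => (i3 i).restrict] at h1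
    rw [← h1]
    refine setIntegral_congr_fun h.1.measurableSet fun x hx => ?_
    have e : ∀ i, dv I (cf I p (finBasis ℝ E i)) (w i) x =
        dv I (cf I p (finBasis ℝ E i)) f x * (r x * cp I p X i x) +
          f x * dv I (cf I p (finBasis ℝ E i)) (fun y => r y * cp I p X i y) x := fun i =>
      dv_mul (hf x) ((hr x hx).mul' (cp_sm (hs x hx) (hX x hx) i))
    change _ = ∑ i, (r x)⁻¹ * _
    simp only [e, ldv, mul_add, Finset.sum_add_distrib]
    rw [dv_cp (hs x hx) X f, Finset.mul_sum, Finset.sum_mul]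
    congr 1 <;> refine Finset.sum_congr rfl fun i _ => ?_
    · have := h0 x hx
      rw [smul_eq_mul]; field_simp
    · ring
  · intro x hx
    have : x ∉ tsupport f := fun h' => hx (hO h')
    rw [dv_eq_zero_of_notMem this, image_eq_zero_of_notMem_tsupport this]; simp

theorem IsDiv.unique {μ : Measure M} [IsFiniteMeasureOnCompacts μ] [μ.IsOpenPosMeasure]
    {X : VF I M} {d d' : M → ℝ} {U : Set M} (hU : IsOpen U) (h : IsDiv I μ X d U)
    (h' : IsDiv I μ X d' U) (hd : ∀ x ∈ U, FSm I d x) (hd' : ∀ x ∈ U, FSm I d' x) :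
    EqOn d d' U := by
  intro x hx
  obtain ⟨χ, h1, h2, h3, h4, h5⟩ := exists_bump (I := I) (hU.mem_nhds hx)
  let f : M → ℝ := fun y => χ y • (d y - d' y)
  have hf : Sm I f := sm_cut h1 h3 fun y hy => (hd y hy).sub (hd' y hy)
  have tf : tsupport f ⊆ tsupport χ := tsupport_smul_subset_left _ _
  have cf : HasCompactSupport f := h2.of_isClosed_subset (isClosed_tsupport _) tf
  have c1 := cont_cut hf.continuous (tf.trans h3) fun y hy => (hd y hy).continuousAt
  have c2 := cont_cut hf.continuous (tf.trans h3) fun y hy => (hd' y hy).continuousAt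
  have e := (h f hf cf (tf.trans h3)).symm.trans (h' f hf cf (tf.trans h3))
  rw [neg_inj, ← sub_eq_zero, ← integral_sub (c1.integrable_of_hasCompactSupport cf.mul_left)
    (c2.integrable_of_hasCompactSupport cf.mul_left)] at e
  by_contra hne
  refine ((c1.sub c2).integral_pos_of_hasCompactSupport_nonneg_nonzero (μ := μ) (x := x)
    (cf.mul_left.sub cf.mul_left) (fun y => ?_) ?_).ne' e
  · have : d y * f y - d' y * f y = χ y * (d y - d' y) ^ 2 := by simp only [f, smul_eq_mul]; ring
    change 0 ≤ d y * f y - d' y * f y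
    rw [this]; exact mul_nonneg (h4 y).1 (sq_nonneg _)
  · have : d x * f x - d' x * f x = χ x * (d x - d' x) ^ 2 := by simp only [f, smul_eq_mul]; ring
    change d x * f x - d' x * f x ≠ 0
    rw [this, h5.self_of_nhds]
    simpa [sub_eq_zero] using hne

/-- the divergence is a local notion -/
theorem isDiv_of_loc {μ : Measure M} [IsFiniteMeasureOnCompacts μ] {X : VF I M} {d : M → ℝ}
    {U : Set M} (hX : ∀ x ∈ U, VAt I X x) (hd : ∀ x ∈ U, ContinuousAt d x)
    (h : ∀ x ∈ U, ∃ O ∈ 𝓝 x, IsDiv I μ X d O) : IsDiv I μ X d U := by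
  intro f hf hc hU
  refine loc_induction (I := I) (U := U) (p := fun f =>
    ∫ x, dv I X f x ∂μ = -∫ x, d x * f x ∂μ) (by simp) ?_ ?_ hf hc hU
  · intro f g h1 h2 h3 h4 h5 h6 h7 h8
    have e : dv I X (f + g) = fun x => dv I X f x + dv I X g x := funext fun x =>
      dv_add ((h1 x).mdifferentiableAt (by simp)) ((h4 x).mdifferentiableAt (by simp))
    simp only [e, Pi.add_apply, mul_add]
    rw [integral_add ((cont_dv hX h1 h3).continuous.integrable_of_hasCompactSupport (dv_hcs h2))
      ((cont_dv hX h4 h6).continuous.integrable_of_hasCompactSupport (dv_hcs h5)),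
      integral_add ((cont_cut h1.continuous h3 hd).integrable_of_hasCompactSupport h2.mul_left)
      ((cont_cut h4.continuous h6 hd).integrable_of_hasCompactSupport h5.mul_left), h7, h8]
    ring
  · intro x hx
    obtain ⟨O, hO, h'⟩ := h x hx
    exact ⟨O, hO, fun f h1 h2 h3 _ => h' f h1 h2 h3⟩

/-! ### the divergence for the measure of a `Pre` -/

variable {ι : Type} [Fintype ι] (F : Pre I M ι)

instance : F.μ.IsOpenPosMeasure := ⟨fun U hU ⟨x, hx⟩ => by
  obtain ⟨O, ρ, h1, h2, h3⟩ := F.dens x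
  exact dens_pos h1 h2.continuousOn h3 hU hx⟩

/-- the divergence of `X` for the measure of `F` -/
def dvg (X : VF I M) (x : M) : ℝ :=
  ldv I x (fun y => (F.dens x).choose_spec.choose (extChartAt I x y)) X x

theorem exists_ldv (x : M) : ∃ O, IsOpen O ∧ x ∈ O ∧ ∃ r : M → ℝ, ∀ X : VF I M,
    dvg F X x = ldv I x r X x ∧ ∀ U, IsOpen U → (∀ y ∈ U, VAt I X y) →
      IsDiv I F.μ X (ldv I x r X) (O ∩ U) ∧ ∀ y ∈ O ∩ U, FSm I (ldv I x r X) y := by
  obtain ⟨h1, h2, h3⟩ := (F.dens x).choose_spec.choose_spec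
  set O := (F.dens x).choose
  set ρ := (F.dens x).choose_spec.choose
  refine ⟨O, h1.1, h1.2.1, fun y => ρ (extChartAt I x y), fun X => ⟨rfl, fun U hU hX => ?_⟩⟩
  have hs : ∀ y ∈ O, y ∈ (chartAt H x).source := fun y hy => by simpa using h1.2.2.1 hy
  have hl : ∀ y ∈ O ∩ U, FSm I (ldv I x (fun y => ρ (extChartAt I x y)) X) y := fun y hy =>
    ldv_sm (hs y hy.1) (hX y hy.2) ((h2.contDiffAt ((isOpen_img h1.1 h1.2.2.1).mem_nhds
      ⟨y, hy.1, rfl⟩)).comp_contMDiffAt (contMDiffAt_extChartAt' (hs y hy.1)))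
        (h3 _ ⟨y, hy.1, rfl⟩).ne'
  refine ⟨isDiv_of_loc (fun y hy => hX y hy.2) (fun y hy => (hl y hy).continuousAt)
    fun y hy => ?_, hl⟩
  obtain ⟨χ, c1, -, c3, -, c5⟩ := exists_bump (I := I) ((h1.1.inter hU).mem_nhds hy)
  have h4 := isDiv_ldv h1 h2 h3 (X := fun z => χ z • X z) fun z _ =>
    VAt.cutoff (c1 z) c3 fun hz => hX z hz.2
  refine ⟨O ∩ {z | χ =ᶠ[𝓝 z] 1}, inter_mem (h1.1.mem_nhds hy.1) c5.eventually_nhds,
    (h4.mono inter_subset_left).congr (fun z hz => ?_) fun z hz => ?_⟩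
  · rw [hz.2.self_of_nhds]; simp
  · unfold ldv
    congr 1
    refine Finset.sum_congr rfl fun i _ => dv_congr ?_
    filter_upwards [hz.2] with w hw
    simp only [cp]
    rw [dv_vsmul, hw]; simp

variable {F}

theorem dvg_eq {X : VF I M} {U : Set M} (hU : IsOpen U) (hX : ∀ y ∈ U, VAt I X y) {d : M → ℝ}
    (h : IsDiv I F.μ X d U) (hd : ∀ y ∈ U, FSm I d y) : EqOn (dvg F X) d U := by
  intro x hx
  obtain ⟨O, h1, h2, r, h3⟩ := exists_ldv F x
  obtain ⟨h4, h5⟩ := (h3 X).2 U hU hX
  rw [(h3 X).1]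
  exact h4.unique (h1.inter hU) (h.mono inter_subset_right) h5 (fun y hy => hd y hy.2) ⟨h2, hx⟩

theorem dvg_spec {X : VF I M} {U : Set M} (hU : IsOpen U) (hX : ∀ y ∈ U, VAt I X y) :
    (∀ y ∈ U, FSm I (dvg F X) y) ∧ IsDiv I F.μ X (dvg F X) U := by
  have key : ∀ x ∈ U, ∃ O ∈ 𝓝 x, FSm I (dvg F X) x ∧ IsDiv I F.μ X (dvg F X) O := by
    intro x hx
    obtain ⟨O, h1, h2, r, h3⟩ := exists_ldv F x
    obtain ⟨h4, h5⟩ := (h3 X).2 U hU hX
    have h6 := dvg_eq (h1.inter hU) (fun y hy => hX y hy.2) h4 h5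
    have h7 := (h1.inter hU).mem_nhds ⟨h2, hx⟩
    exact ⟨_, h7, (h5 x ⟨h2, hx⟩).congr_of_eventuallyEq (eventuallyEq_of_mem h7 h6),
      h4.congr (fun _ _ => rfl) h6⟩
  have h1 : ∀ y ∈ U, FSm I (dvg F X) y := fun y hy => (key y hy).choose_spec.2.1
  exact ⟨h1, isDiv_of_loc hX (fun y hy => (h1 y hy).continuousAt) fun y hy =>
    let ⟨O, h2, _, h3⟩ := key y hy; ⟨O, h2, h3⟩⟩

end Crest.Agent.X212.Met55
end
end

-- ▼ part X212/Met55/Fr

/-! `Pre ⇒ Fr`: existence and uniqueness of the projector, the brackets and the divergences;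
transport under `Iso`; the divergence of the Riemannian measure. -/

set_option linter.unusedSectionVars false

open scoped Manifold ContDiff Topology ENNReal
open Set Filter Function MeasureTheory Module Matrix

noncomputable section
namespace Crest.Agent.X212.Met55

open Sob92 Pj41 An

variable {E : Type} [NormedAddCommGroup E] [NormedSpace ℝ E] [FiniteDimensional ℝ E]
  {H : Type} [TopologicalSpace H] {I : ModelWithCorners ℝ E H}
  {M : Type} [TopologicalSpace M] [ChartedSpace H M] [IsManifold I ∞ M]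
  {E' : Type} [NormedAddCommGroup E'] [NormedSpace ℝ E'] [FiniteDimensional ℝ E']
  {H' : Type} [TopologicalSpace H'] {I' : ModelWithCorners ℝ E' H'}
  {M' : Type} [TopologicalSpace M'] [ChartedSpace H' M'] [IsManifold I' ∞ M']
  {V : Type} [NormedAddCommGroup V] [NormedSpace ℝ V] {ι κ : Type} [Fintype ι] [Fintype κ]

theorem sp_iff {E : Type*} [AddCommGroup E] [Module ℝ E] {v : ι → E} :
    Sp v ↔ Submodule.span ℝ (range v) = ⊤ := by
  simp only [Sp, Submodule.eq_top_iff', Submodule.mem_span_range_iff_exists_fun, eq_comm]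

/-- the family at a point, as vectors of the model space -/
abbrev atx (e : ι → VF I M) (x : M) : ι → E := fun a => e a x

variable (I) in
/-- the family in the chart at `p` -/
abbrev inc (p : M) (e : ι → VF I M) (x : M) : ι → E := fun a => dv I (e a) (extChartAt I p) x

/-- the projector of a frame -/
def fP (e : ι → VF I M) (x : M) : Matrix ι ι ℝ := prj (finBasis ℝ E) (atx e x)

/-- the coefficients of a vector field in a frame -/
def fT (e : ι → VF I M) (X : VF I M) (x : M) : ι → ℝ := th (finBasis ℝ E) (atx e x) (X x)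

/-- the Riemannian density of a frame -/
def rj (e : ι → VF I M) (x : M) : ℝ := rjb (finBasis ℝ E) (atx e x)

section frame
variable {e : ι → VF I M} {p x : M}

/-- the differential of the chart as a linear map of the model space -/
abbrev dch (I : ModelWithCorners ℝ E H) (p x : M) : E →ₗ[ℝ] E :=
  (show E →L[ℝ] E from mfderiv I 𝓘(ℝ, E) (extChartAt I p) x).toLinearMap

theorem sp_inc (hx : x ∈ (chartAt H p).source) (hs : Sp (atx e x)) : Sp (inc I p e x) :=
  hs.map (A := dch I p x) (bij_chart hx).2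

theorem fP_chart (hx : x ∈ (chartAt H p).source) (hs : Sp (atx e x)) :
    fP e x = prj (finBasis ℝ E) (inc I p e x) :=
  (hs.prj_map (A := dch I p x) (bij_chart hx) _ _).symm

theorem fT_chart (hx : x ∈ (chartAt H p).source) (hs : Sp (atx e x)) (X : VF I M) :
    fT e X x = th (finBasis ℝ E) (inc I p e x) (dv I X (extChartAt I p) x) :=
  (hs.th_map (A := dch I p x) (bij_chart hx) _ _ _).symm

theorem msm_fm (hx : x ∈ (chartAt H p).source) (he : ∀ a, VAt I (e a) x) :
    MSm I (fun y => fm (finBasis ℝ E) (inc I p e y)) x := fun i a => cp_sm hx (he a) i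

theorem msm_gm (hx : x ∈ (chartAt H p).source) (he : ∀ a, VAt I (e a) x) :
    MSm I (fun y => gm (finBasis ℝ E) (inc I p e y)) x := (msm_fm hx he).mul (msm_fm hx he).transpose

theorem msm_ri (hx : x ∈ (chartAt H p).source) (he : ∀ a, VAt I (e a) x) (hs : Sp (atx e x)) :
    MSm I (fun y => ri (finBasis ℝ E) (inc I p e y)) x :=
  (msm_fm hx he).transpose.mul ((msm_gm hx he).inv (sp_inc hx hs).det_pos.ne')

theorem sm_rjb (hx : x ∈ (chartAt H p).source) (he : ∀ a, VAt I (e a) x) (hs : Sp (atx e x)) :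
    FSm I (fun y => rjb (finBasis ℝ E) (inc I p e y)) x :=
  FSm.inv' ((Real.contDiffAt_sqrt (sp_inc hx hs).det_pos.ne').comp_contMDiffAt
    (f := fun y => (gm (finBasis ℝ E) (inc I p e y)).det) (msm_gm hx he).det)
    (Real.sqrt_pos.2 (sp_inc hx hs).det_pos).ne'

theorem sp_eventually (he : ∀ a, VAt I (e a) x) (hs : Sp (atx e x)) :
    ∀ᶠ y in 𝓝 x, Sp (atx e y) := by
  have hx := mem_chart_source H x
  filter_upwards [(msm_gm hx he).det.continuousAt.eventually_ne (sp_inc hx hs).det_pos.ne',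
    (chartAt H x).open_source.mem_nhds hx] with y h1 h2
  intro w
  obtain ⟨c, hc⟩ := sp_of_unit h1.isUnit (dch I x y w)
  refine ⟨c, (bij_chart (I := I) h2).1 (hc.trans ?_)⟩
  change _ = dch I x y _
  simp only [map_sum, map_smul]; rfl

theorem msm_fP (he : ∀ a, VAt I (e a) x) (hs : Sp (atx e x)) : MSm I (fP e) x := by
  have hx := mem_chart_source H x
  refine ((msm_ri hx he hs).mul (msm_fm hx he)).congr ?_
  filter_upwards [sp_eventually he hs, (chartAt H x).open_source.mem_nhds hx] with y h1 h2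
  exact fP_chart h2 h1

theorem sm_fT (he : ∀ a, VAt I (e a) x) (hs : Sp (atx e x)) {X : VF I M} (hX : VAt I X x) (a : ι) :
    FSm I (fun y => fT e X y a) x := by
  have hx := mem_chart_source H x
  refine ((msm_ri hx he hs).mulVec (v := fun y i => cp I x X i y) (cp_sm hx hX)
    a).congr_of_eventuallyEq ?_
  filter_upwards [sp_eventually he hs, (chartAt H x).open_source.mem_nhds hx] with y h1 h2
  exact congrFun (fT_chart h2 h1 X) a

theorem sum_fT (hs : Sp (atx e x)) (X : VF I M) : ∑ a, fT e X x a • e a x = X x := hs.sum_th _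

theorem dv_fT (hs : Sp (atx e x)) (X : VF I M) (u : M → V) :
    dv I X u x = ∑ a, fT e X x a • dv I (e a) u x := by
  rw [← dv_vcomb (fun a y => fT e X y a)]; exact dv_vcongr (sum_fT hs X).symm u

end frame

/-- a tangent vector is determined by its action on scalar functions -/
theorem tan_ext' {X Y : VF I M} {x : M}
    (h : ∀ f : M → ℝ, FSm I f x → dv I X f x = dv I Y f x) : X x = Y x := by
  refine tan_ext (mem_chart_source H x) ((finBasis ℝ E).ext_elem fun i => ?_)
  have hφ : FSm I (extChartAt I x) x := contMDiffAt_extChartAt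
  let L := ((finBasis ℝ E).coord i).toContinuousLinearMap
  have := h (fun y => L (extChartAt I x y)) (L.contDiff.contDiffAt.comp_contMDiffAt hφ)
  rwa [dv_clm L (hφ.mdifferentiableAt (by simp)), dv_clm L (hφ.mdifferentiableAt (by simp))] at this

theorem ld_of_oph {φ : OpenPartialHomeomorph M M'} (h1 : ContMDiffOn I I' ∞ φ φ.source)
    (h2 : ContMDiffOn I' I ∞ φ.symm φ.target) {x : M} (hx : x ∈ φ.source) :
    IsLocalDiffeomorphAt I I' ∞ φ x :=
  ⟨⟨φ.toPartialEquiv, φ.open_source, φ.open_target, h1, h2⟩, hx, fun _ _ => rfl⟩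

/-- the differential as a linear map of the model spaces -/
abbrev dmp (I : ModelWithCorners ℝ E H) (I' : ModelWithCorners ℝ E' H') (f : M → M') (x : M) :
    E →ₗ[ℝ] E' := (show E →L[ℝ] E' from mfderiv I I' f x).toLinearMap

theorem fP_rel {f : M → M'} {x : M} (h : IsLocalDiffeomorphAt I I' ∞ f x) {e : ι → VF I M}
    {e' : ι → VF I' M'} (hs : Sp (atx e x)) (hr : ∀ a, mfderiv I I' f x (e a x) = e' a (f x)) :
    fP e x = fP e' (f x) := by
  have : atx e' (f x) = fun a => dmp I I' f x (atx e x a) := funext fun a => (hr a).symm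
  rw [fP, fP, this, hs.prj_map (A := dmp I I' f x) (ld_bij h) (finBasis ℝ E)]

theorem fT_rel {f : M → M'} {x : M} (h : IsLocalDiffeomorphAt I I' ∞ f x) {e : ι → VF I M}
    {e' : ι → VF I' M'} (hs : Sp (atx e x)) (hr : ∀ a, mfderiv I I' f x (e a x) = e' a (f x))
    {X : VF I M} {X' : VF I' M'} (hX : mfderiv I I' f x (X x) = X' (f x)) :
    fT e X x = fT e' X' (f x) := by
  have : atx e' (f x) = fun a => dmp I I' f x (atx e x a) := funext fun a => (hr a).symm
  rw [fT, fT, this, ← hX]
  exact (hs.th_map (A := dmp I I' f x) (ld_bij h) _ _ _).symm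

variable [MeasurableSpace E] [BorelSpace E] [MeasurableSpace E'] [BorelSpace E']
  [MeasurableSpace M] [MeasurableSpace M']

theorem pre_sp (F : Pre I M ι) (x : M) : Sp (atx F.e x) := sp_iff.2 (F.span x)

theorem fr_isP (F : Fr I M ι) (x : M) : IsP (atx F.e x) (Matrix.of fun a b => F.P a b x) :=
  ⟨by ext a b; exact F.P_symm b a x, fun a => F.P_e a x, fun c hc => funext (F.P_ker x c hc)⟩

theorem fr_P (F : Fr I M ι) (a b : ι) (x : M) : F.P a b x = fP F.e x a b :=
  congrFun (congrFun ((fr_isP F x).eq_prj (pre_sp F.toPre x) (finBasis ℝ E)) a) b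

variable [I.Boundaryless] [I'.Boundaryless]

theorem fr_br (F : Fr I M ι) (a b : ι) (x : M) :
    ∑ l, F.c a b l x • F.e l x = br I (F.e a) (F.e b) x := by
  refine tan_ext' (X := fun y => ∑ l, F.c a b l y • F.e l y) fun f hf => ?_
  rw [dv_vcomb, dv_br (F.sm a x) (F.sm b x) (hf.of_le two_le)]
  exact (F.br a b f x (hf.of_le two_le)).symm

theorem fr_c (F : Fr I M ι) (a b l : ι) (x : M) :
    F.c a b l x = fT F.e (br I (F.e a) (F.e b)) x l :=
  congrFun ((fr_isP F x).eq_th (pre_sp F.toPre x) (finBasis ℝ E) (c := fun l => F.c a b l x)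
    (funext fun l => F.c_P a b l x) (fr_br F a b x)) l

variable [BorelSpace M] [T2Space M] [BorelSpace M'] [T2Space M']

theorem fr_dv (F : Fr I M ι) (a : ι) (x : M) : F.dv a x = dvg F.toPre (F.e a) x :=
  (dvg_eq isOpen_univ (fun y _ => F.sm a y) (fun f h1 h2 _ => F.ibp a f h1 h2)
    (fun y _ => F.dv_sm a y) (mem_univ x)).symm

/-- **every `Pre` is a `Fr`** -/
def toFr (F : Pre I M ι) : Fr I M ι where
  toPre := F
  P a b x := fP F.e x a b
  c a b l x := fT F.e (br I (F.e a) (F.e b)) x l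
  dv a := dvg F (F.e a)
  P_sm a b x := msm_fP (fun a => F.sm a x) (pre_sp F x) a b
  c_sm a b l x := sm_fT (fun a => F.sm a x) (pre_sp F x)
    (vAt_br isOpen_univ (fun y _ => F.sm a y) (fun y _ => F.sm b y) (mem_univ x)) l
  dv_sm a x := (dvg_spec isOpen_univ fun y _ => F.sm a y).1 x (mem_univ x)
  P_symm a b _ := prj_symm a b
  P_e a x := (pre_sp F x).sum_prj a
  P_ker x ξ h a := congrFun ((pre_sp F x).isP.ker ξ h) a
  c_P a b l x := congrFun ((pre_sp F x).prj_th (br I (F.e a) (F.e b) x)) l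
  br a b f x hf := (dv_br (F.sm a x) (F.sm b x) hf).symm.trans (dv_fT (pre_sp F x) _ f)
  ibp a f h1 h2 := (dvg_spec isOpen_univ fun y _ => F.sm a y).2 f h1 h2 (subset_univ _)

@[simp] theorem toFr_toPre (F : Pre I M ι) : (toFr F).toPre = F := rfl

theorem toFr_eq (F : Fr I M ι) : toFr F.toPre = F := by
  have h1 : (toFr F.toPre).P = F.P := by funext a b x; exact (fr_P F a b x).symm
  have h2 : (toFr F.toPre).c = F.c := by funext a b l x; exact (fr_c F a b l x).symm
  have h3 : (toFr F.toPre).dv = F.dv := by funext a x; exact (fr_dv F a x).symm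
  cases F
  simp only [toFr] at h1 h2 h3 ⊢
  congr

theorem fr_ext {F G : Fr I M ι} (h : F.toPre = G.toPre) : F = G := by
  rw [← toFr_eq F, h, toFr_eq]

theorem pre_ext {F G : Pre I M ι} (he : F.e = G.e) (hμ : F.μ = G.μ) : F = G := by
  cases F; cases G; simp only at he hμ; subst he hμ; rfl

/-! ### transport under `Iso` -/

section iso
variable {φ : OpenPartialHomeomorph M M'}

theorem iso_ld {F : Pre I M ι} {F' : Pre I' M' ι} (h : Iso F F' φ) {x : M} (hx : x ∈ φ.source) :
    IsLocalDiffeomorphAt I I' ∞ φ x := ld_of_oph h.sm h.sm' hx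

theorem iso_P {F : Fr I M ι} {F' : Fr I' M' ι} (h : Iso F.toPre F'.toPre φ) {x : M}
    (hx : x ∈ φ.source) (a b : ι) : F.P a b x = F'.P a b (φ x) := by
  rw [fr_P, fr_P, fP_rel (iso_ld h hx) (pre_sp _ x) fun a => h.e a x hx]

theorem iso_c {F : Fr I M ι} {F' : Fr I' M' ι} (h : Iso F.toPre F'.toPre φ) {x : M}
    (hx : x ∈ φ.source) (a b l : ι) : F.c a b l x = F'.c a b l (φ x) := by
  have hr : ∀ a, ∀ᶠ y in 𝓝 x, mfderiv I I' φ y (F.e a y) = F'.e a (φ y) := fun a => by
    filter_upwards [φ.open_source.mem_nhds hx] with y hy using h.e a y hy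
  rw [fr_c, fr_c, fT_rel (iso_ld h hx) (pre_sp _ x) (fun a => h.e a x hx)
    (br_rel (iso_ld h hx).contMDiffAt (F.sm a x) (F.sm b x) (F'.sm a _) (F'.sm b _) (hr a) (hr b))]

/-- integrals under a measure preserving partial homeomorphism -/
theorem integral_oph [SecondCountableTopology V] {μ : Measure M} {μ' : Measure M'}
    (hμ : (μ.restrict φ.source).map φ = μ'.restrict φ.target) {g : M → V}
    (hg : ContinuousOn g φ.source) :
    ∫ x in φ.source, g x ∂μ = ∫ y in φ.target, g (φ.symm y) ∂μ' := by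
  have h1 : ∫ x in φ.source, g x ∂μ = ∫ x in φ.source, g (φ.symm (φ x)) ∂μ :=
    setIntegral_congr_fun φ.open_source.measurableSet fun x hx => by simp only [φ.left_inv hx]
  rw [h1, ← hμ, integral_map (φ.continuousOn.aemeasurable φ.open_source.measurableSet)]
  rw [hμ]
  exact (hg.comp φ.continuousOn_symm φ.symm.mapsTo).aestronglyMeasurable
    φ.open_target.measurableSet

omit [BorelSpace M] [BorelSpace M'] in
theorem tsupport_pull {f : M' → V} (hc : HasCompactSupport f) (hs : tsupport f ⊆ φ.target) :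
    IsCompact (φ.symm '' tsupport f) ∧ tsupport (pull φ f) ⊆ φ.symm '' tsupport f := by
  have hK : IsCompact (φ.symm '' tsupport f) :=
    hc.isCompact.image_of_continuousOn (φ.continuousOn_symm.mono hs)
  refine ⟨hK, closure_minimal (fun x hx => ?_) hK.isClosed⟩
  rw [pull, support_indicator] at hx
  exact ⟨φ x, subset_tsupport _ hx.2, φ.left_inv hx.1⟩

omit [BorelSpace M] [BorelSpace M'] in
theorem pull_ev (f : M' → V) {x : M} (hx : x ∈ φ.source) : pull φ f =ᶠ[𝓝 x] f ∘ φ := by
  filter_upwards [φ.open_source.mem_nhds hx] with y hy using indicator_of_mem hy _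

omit [BorelSpace M] [BorelSpace M'] in
theorem sm_pull (h1 : ContMDiffOn I I' ∞ φ φ.source) {f : M' → V} (hf : Sm I' f)
    (hc : HasCompactSupport f) (hs : tsupport f ⊆ φ.target) :
    Sm I (pull φ f) ∧ HasCompactSupport (pull φ f) ∧ tsupport (pull φ f) ⊆ φ.source := by
  obtain ⟨hK, h2⟩ := tsupport_pull hc hs
  have h3 : tsupport (pull φ f) ⊆ φ.source := h2.trans (by
    rintro _ ⟨y, hy, rfl⟩; exact φ.map_target (hs hy))
  refine ⟨fun x => ?_, hK.of_isClosed_subset (isClosed_tsupport _) h2, h3⟩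
  by_cases hx : x ∈ φ.source
  · exact ((hf _).comp x (h1.contMDiffAt (φ.open_source.mem_nhds hx))).congr_of_eventuallyEq
      (pull_ev f hx)
  · exact contMDiffAt_const.congr_of_eventuallyEq
      (notMem_tsupport_iff_eventuallyEq.1 fun h => hx (h3 h))

theorem IsDiv.pull {μ : Measure M} {μ' : Measure M'} (h1 : ContMDiffOn I I' ∞ φ φ.source)
    (h2 : ContMDiffOn I' I ∞ φ.symm φ.target)
    (hμ : (μ.restrict φ.source).map φ = μ'.restrict φ.target) {X : VF I M} {X' : VF I' M'}
    (hX : ∀ x ∈ φ.source, VAt I X x)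
    (hr : ∀ x ∈ φ.source, mfderiv I I' φ x (X x) = X' (φ x)) {d : M' → ℝ}
    (hd : ContinuousOn d φ.target) (h : IsDiv I' μ' X' d φ.target) :
    IsDiv I μ X (d ∘ φ) φ.source := by
  intro f hf hc hs
  obtain ⟨a1, a2, a3⟩ := sm_pull (φ := φ.symm) h2 hf hc hs
  have e := h _ a1 a2 a3
  have n1 : ∀ x, x ∉ φ.source → x ∉ tsupport f := fun x hx h => hx (hs h)
  have n2 : ∀ x, x ∉ φ.target → x ∉ tsupport (An.pull φ.symm f) := fun x hx h => hx (a3 h)
  rw [← setIntegral_eq_integral_of_forall_compl_eq_zero (s := φ.target)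
      fun x hx => dv_eq_zero_of_notMem (n2 x hx),
    ← setIntegral_eq_integral_of_forall_compl_eq_zero (s := φ.target) (f := fun x => d x * _)
      fun x hx => by simp [image_eq_zero_of_notMem_tsupport (n2 x hx)]] at e
  rw [← setIntegral_eq_integral_of_forall_compl_eq_zero (s := φ.source)
      fun x hx => dv_eq_zero_of_notMem (n1 x hx),
    ← setIntegral_eq_integral_of_forall_compl_eq_zero (s := φ.source) (f := fun x => (d ∘ φ) x * _)
      fun x hx => by simp [image_eq_zero_of_notMem_tsupport (n1 x hx)],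
    integral_oph hμ (cont_dv hX hf hs).continuous.continuousOn,
    integral_oph hμ (g := fun x => (d ∘ φ) x * f x)
      ((hd.comp φ.continuousOn φ.mapsTo).mul hf.continuous.continuousOn)]
  convert e using 1
  · refine setIntegral_congr_fun φ.open_target.measurableSet fun y hy => ?_
    have hx := φ.map_target hy
    have h3 : f =ᶠ[𝓝 (φ.symm y)] An.pull φ.symm f ∘ φ := by
      filter_upwards [φ.open_source.mem_nhds hx] with z hz
      rw [Function.comp_apply, (pull_ev (φ := φ.symm) f (φ.map_source hz)).self_of_nhds,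
        Function.comp_apply,
        φ.left_inv hz]
    change dv I X f (φ.symm y) = _
    rw [dv_congr h3, dv_rel ((h1.contMDiffAt (φ.open_source.mem_nhds hx)).mdifferentiableAt
      (by simp)) (hr _ hx) ((a1 _).mdifferentiableAt (by simp)), φ.right_inv hy]
  · congr 1
    refine setIntegral_congr_fun φ.open_target.measurableSet fun y hy => ?_
    simp only [Function.comp_apply, φ.right_inv hy, (pull_ev (φ := φ.symm) f hy).self_of_nhds]

theorem dvg_rel {F : Pre I M ι} {F' : Pre I' M' κ} (h1 : ContMDiffOn I I' ∞ φ φ.source)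
    (h2 : ContMDiffOn I' I ∞ φ.symm φ.target)
    (hμ : (F.μ.restrict φ.source).map φ = F'.μ.restrict φ.target) {X : VF I M} {X' : VF I' M'}
    (hX : ∀ x ∈ φ.source, VAt I X x)
    (hr : ∀ x ∈ φ.source, mfderiv I I' φ x (X x) = X' (φ x)) {x : M} (hx : x ∈ φ.source) :
    dvg F X x = dvg F' X' (φ x) := by
  have hX' : ∀ y ∈ φ.target, VAt I' X' y := fun y hy => by
    have hx := φ.map_target hy
    rw [← φ.right_inv hy]
    refine (vAt_rel (ld_of_oph h1 h2 hx) ?_).1 (hX _ hx)
    filter_upwards [φ.open_source.mem_nhds hx] with z hz using hr z hz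
  obtain ⟨a1, a2⟩ := dvg_spec (F := F') φ.open_target hX'
  exact dvg_eq φ.open_source hX (a2.pull h1 h2 hμ hX hr
    fun y hy => (a1 y hy).continuousAt.continuousWithinAt) (fun y hy =>
      (a1 _ (φ.map_source hy)).comp y (h1.contMDiffAt (φ.open_source.mem_nhds hy))) hx

theorem iso_dv {F : Fr I M ι} {F' : Fr I' M' ι} (h : Iso F.toPre F'.toPre φ) {x : M}
    (hx : x ∈ φ.source) (a : ι) : F.dv a x = F'.dv a (φ x) := by
  rw [fr_dv, fr_dv, dvg_rel h.sm h.sm' h.μ (fun y _ => F.sm a y) (h.e a) hx]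

end iso

/-! ### the divergence of the Riemannian measure -/

section jacobi
variable {n : Type} [Fintype n] [DecidableEq n]

theorem differentiable_det : Differentiable ℝ fun B : n → n → ℝ => Matrix.det (Matrix.of B) := by
  simp only [det_apply', of_apply]
  fun_prop

theorem fderiv_det {A : Matrix n n ℝ} (h : IsUnit A.det) (B : Matrix n n ℝ) :
    fderiv ℝ (fun B : n → n → ℝ => Matrix.det (Matrix.of B)) A B = A.det * (A⁻¹ * B).trace := by
  have h0 : ∀ B : Matrix n n ℝ, HasDerivAt (fun t : ℝ => (1 + t • B).det) B.trace 0 := fun B => by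
    rw [funext fun t : ℝ => Matrix.det_one_add_smul t B]
    have h0 : HasDerivAt (fun t : ℝ => t) 1 0 := hasDerivAt_id 0
    refine (((h0.const_mul B.trace).const_add 1).add ((Polynomial.hasDerivAt _ (0 : ℝ)).mul
      (h0.pow 2))).congr_deriv ?_
    simp
  let A' : n → n → ℝ := A
  let B' : n → n → ℝ := B
  have h3 : HasDerivAt (fun t : ℝ => A' + t • B') B' 0 := by
    simpa using ((hasDerivAt_id (0 : ℝ)).smul_const B').const_add A'
  have h4 := (differentiable_det (A' + (0 : ℝ) • B')).hasFDerivAt.comp_hasDerivAt (0 : ℝ) h3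
  have h6 : ((fun B : n → n → ℝ => Matrix.det (Matrix.of B)) ∘ fun t : ℝ => A' + t • B')
      = fun t : ℝ => A.det * (1 + t • (A⁻¹ * B)).det := by
    ext t
    rw [← Matrix.det_mul, Matrix.mul_add, Matrix.mul_one, Matrix.mul_smul, ← Matrix.mul_assoc,
      Matrix.mul_nonsing_inv _ h, Matrix.one_mul]
    rfl
  rw [h6, zero_smul, add_zero] at h4
  exact h4.unique ((h0 _).const_mul _)

omit [MeasurableSpace M] [BorelSpace M] [T2Space M] in
/-- Jacobi's formula -/
theorem dv_det {A : M → Matrix n n ℝ} {x : M} (hA : MSm I A x) (h : IsUnit (A x).det) (X : VF I M) :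
    dv I X (fun y => (A y).det) x =
      (A x).det * ((A x)⁻¹ * Matrix.of fun i j => dv I X (fun y => A y i j) x).trace := by
  have h1 := (MSm.iff_pi.1 hA).mdifferentiableAt (by simp)
  have h2 := dv_comp (e := X) h1 (differentiable_det _).hasFDerivAt
  have h3 : dv I X (fun y i j => A y i j) x = fun i j => dv I X (fun y => A y i j) x := by
    funext i j
    exact (dv_clm ((ContinuousLinearMap.proj (R := ℝ) (φ := fun _ : n => ℝ) j).comp
      (ContinuousLinearMap.proj (R := ℝ) (φ := fun _ : n => n → ℝ) i)) h1).symm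
  rw [h3] at h2
  exact h2.trans (fderiv_det h _)

end jacobi

omit [MeasurableSpace M] [BorelSpace M] [T2Space M] in
theorem ldv_rjb {e : ι → VF I M} {p x : M} (hx : x ∈ (chartAt H p).source)
    (he : ∀ a, VAt I (e a) x) (hs : Sp (atx e x)) {X : VF I M} (hX : VAt I X x) :
    ldv I p (fun y => rjb (finBasis ℝ E) (inc I p e y)) X x = ∑ b, fT e (br I (e b) X) x b := by
  have hs' := sp_inc hx hs
  set b := finBasis ℝ E
  set A : M → Matrix _ ι ℝ := fun y => fm b (inc I p e y)
  set G : M → Matrix _ _ ℝ := fun y => gm b (inc I p e y)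
  set R := ri b (inc I p e x)
  set r : M → ℝ := fun y => rjb b (inc I p e y)
  have hA : MSm I A x := msm_fm hx he
  have hG : MSm I G x := msm_gm hx he
  have hr : FSm I r x := sm_rjb hx he hs
  have h0 : 0 < r x := hs'.rjb_pos
  have hd : 0 < (G x).det := hs'.det_pos
  set A' : Matrix _ ι ℝ := Matrix.of fun i a => dv I X (fun y => A y i a) x
  -- the logarithmic derivative of the density
  have h1 : dv I X r x = -(r x * (R * A').trace) := by
    have g1 : HasDerivAt (fun t : ℝ => (√t)⁻¹) (-(1 / (2 * √(G x).det)) / √(G x).det ^ 2)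
        (G x).det := (Real.hasDerivAt_sqrt hd.ne').inv (Real.sqrt_pos.2 hd).ne'
    have g2 := dv_comp (e := X) (hG.det.mdifferentiableAt (by simp)) g1.hasFDerivAt
    have g3 : (Matrix.of fun i j => dv I X (fun y => G y i j) x) = A' * (A x)ᵀ + A x * A'ᵀ := by
      ext i j
      simp only [of_apply, G, gm, mul_apply, transpose_apply, Matrix.add_apply,
        ← Finset.sum_add_distrib]
      rw [dv_sum _ fun a _ => ((hA i a).mul' (hA j a)).mdifferentiableAt (by simp)]
      exact Finset.sum_congr rfl fun a _ => dv_mul (hA i a) (hA j a)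
    have g4 : ((G x)⁻¹ * (A' * (A x)ᵀ + A x * A'ᵀ)).trace = 2 * (R * A').trace := by
      have : ((G x)⁻¹)ᵀ = (G x)⁻¹ := by rw [transpose_nonsing_inv, gm_transpose]
      rw [Matrix.mul_add, trace_add, ← trace_transpose ((G x)⁻¹ * (A x * A'ᵀ)), transpose_mul,
        transpose_mul, transpose_transpose, this, ← Matrix.mul_assoc, trace_mul_comm _ (A x)ᵀ,
        Matrix.mul_assoc A', trace_mul_comm A', ← Matrix.mul_assoc, two_mul]
      rfl
    rw [dv_det hG hd.ne'.isUnit, g3, g4] at g2
    refine g2.trans ?_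
    have := Real.sqrt_pos.2 hd
    simp only [ContinuousLinearMap.toSpanSingleton_apply, smul_eq_mul, r, rjb, Real.sq_sqrt hd.le]
    change _ = -((√(G x).det)⁻¹ * _)
    field_simp
  have h2 : ∀ i, ∀ u : M → ℝ, dv I (cf I p (b i)) u x = ∑ a, R a i * dv I (e a) u x := by
    intro i u
    rw [dv_fT hs, fT_chart hx hs, dv_cf hx]
    refine Finset.sum_congr rfl fun a _ => ?_
    simp [th, R, b, mulVec, dotProduct, Finsupp.single_apply]
  have hφ : FSm I (extChartAt I p) x := contMDiffAt_extChartAt' hx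
  have h3 : ∀ {Y Z : VF I M}, VAt I Z x → ∀ i, b.repr (dv I Y (dv I Z (extChartAt I p)) x) i =
      dv I Y (cp I p Z i) x := fun hZ i =>
    (dv_clm (b.coord i).toContinuousLinearMap (((vAt_iff hx).1 hZ).mdifferentiableAt
      (by simp))).symm
  have h4 : ∀ a, fT e (br I (e a) X) x a =
      ∑ i, R a i * (dv I (e a) (cp I p X i) x - A' i a) := fun a => by
    rw [fT_chart hx hs, dv_br (he a) hX (hφ.of_le two_le)]
    simp only [th, mulVec, dotProduct, map_sub, Finsupp.sub_apply]
    exact Finset.sum_congr rfl fun i _ => by rw [h3 hX, h3 (he a)]; rfl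
  have h5 : ∑ i, dv I (cf I p (b i)) r x * cp I p X i x = dv I X r x := by
    rw [dv_cp hx X r]; exact Finset.sum_congr rfl fun i _ => mul_comm _ _
  simp only [ldv, h4]
  rw [Finset.sum_congr rfl fun i _ => dv_mul hr (cp_sm hx hX i), Finset.sum_add_distrib, h5, h1,
    ← Finset.mul_sum, neg_add_eq_sub, ← mul_sub, inv_mul_cancel_left₀ h0.ne']
  simp only [mul_sub, Finset.sum_sub_distrib]
  rw [Finset.sum_comm, Finset.sum_congr rfl fun i _ => h2 i _]
  rfl

theorem gram_eq (F : Pre I M ι) (p x : M) : F.gram p x = gm (finBasis ℝ E) (inc I p F.e x) := by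
  ext i j; exact (gm_apply i j).symm

theorem dvg_vol {F : Pre I M ι} (h : F.IsVol) {X : VF I M} {U : Set M} (hU : IsOpen U)
    (hX : ∀ y ∈ U, VAt I X y) {x : M} (hx : x ∈ U) :
    dvg F X x = ∑ b, fT F.e (br I (F.e b) X) x b := by
  obtain ⟨O, hO⟩ := h x
  have hs : ∀ y ∈ O, y ∈ (chartAt H x).source := fun y hy => by simpa using hO.2.2.1 hy
  let r : M → ℝ := fun y => rjb (finBasis ℝ E) (inc I x F.e y)
  have hr : ∀ y ∈ O, FSm I r y := fun y hy => sm_rjb (hs y hy) (fun a => F.sm a y) (pre_sp F y)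
  have hρ : ∀ y, (√(F.gram x ((extChartAt I x).symm y)).det)⁻¹ = r ((extChartAt I x).symm y) :=
    fun y => by rw [gram_eq]; rfl
  simp only [hρ] at hO
  obtain ⟨χ, c1, -, c3, -, c5⟩ := exists_bump (I := I) (hU.mem_nhds hx)
  have hX' : ∀ z, VAt I (fun z => χ z • X z) z := fun z => VAt.cutoff (c1 z) c3 (hX z)
  have h1 := isDiv_ldv hO (by
    rintro _ ⟨y, hy, rfl⟩
    exact (chart_contDiffAt le_rfl (hs y hy) (hr y hy)).contDiffWithinAt) (by
    rintro _ ⟨y, hy, rfl⟩
    rw [(extChartAt I x).left_inv (hO.2.2.1 hy)]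
    exact (sp_inc (hs y hy) (pre_sp F y)).rjb_pos) fun z _ => hX' z
  have h2 : IsDiv I F.μ (fun z => χ z • X z)
      (fun y => ∑ b, fT F.e (br I (F.e b) fun z => χ z • X z) y b) O := by
    refine h1.congr (fun _ _ => rfl) fun y hy => ?_
    rw [← ldv_rjb (hs y hy) (fun a => F.sm a y) (pre_sp F y) (hX' y)]
    have e : (fun z => r ((extChartAt I x).symm (extChartAt I x z))) =ᶠ[𝓝 y] r := by
      filter_upwards [hO.1.mem_nhds hy] with z hz
      rw [(extChartAt I x).left_inv (hO.2.2.1 hz)]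
    unfold ldv
    rw [e.self_of_nhds]
    congr 1
    exact Finset.sum_congr rfl fun i _ => dv_congr (e.mono fun z hz => by simp only [hz]; rfl)
  have hW : IsOpen (O ∩ U ∩ {z | χ =ᶠ[𝓝 z] 1}) :=
    (hO.1.inter hU).inter isOpen_setOfPred_eventually_nhds
  have hb : ∀ b, ∀ y ∈ O ∩ U ∩ {z | χ =ᶠ[𝓝 z] 1},
      br I (F.e b) X y = br I (F.e b) (fun z => χ z • X z) y := fun b y hy =>
    br_congr (.of_forall fun _ => rfl) (hy.2.mono fun z hz => by simp [hz])
  refine dvg_eq hW (fun y hy => hX y hy.1.2) (d := fun y => ∑ b, fT F.e (br I (F.e b) X) y b)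
    ((h2.mono fun y hy => hy.1.1).congr (fun y hy => by simp [hy.2.self_of_nhds])
      fun y hy => ?_) (fun y hy => FSm.sum' fun b _ => sm_fT (fun a => F.sm a y) (pre_sp F y)
        (vAt_br hU (fun z _ => F.sm b z) hX hy.1.2) b) ⟨⟨hO.2.1, hx⟩, c5⟩
  exact Finset.sum_congr rfl fun b _ => by simp only [fT, hb b y hy]

/-- **the Riemannian divergence** -/
theorem dv_vol {F : Fr I M ι} (h : F.IsVol) (a : ι) (x : M) :
    F.dv a x = ∑ b, ∑ l, F.c b a l x * F.P l b x := by
  rw [fr_dv, dvg_vol h isOpen_univ (fun y _ => F.sm a y) (mem_univ x)]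
  refine Finset.sum_congr rfl fun b _ => ?_
  rw [← fr_c, ← F.c_P]
  exact Finset.sum_congr rfl fun l _ => by rw [mul_comm, F.P_symm]

end Crest.Agent.X212.Met55
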